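import Vale.Agent.P368.Defs
import Vale.Agent.P368.Final

/-! Parity is not in QAC0. -/

namespace Vale.Agent.Results.P368.ParityNotInQAC0

open Vale.Agent.P368

theorem result :
    (¬ ∃ (ε : ℝ) (d : ℕ) (p : Polynomial ℕ) (N : ℕ → ℕ) (C : ∀ n, List (Layer (N n)))
        (out : ∀ n, Fin (N n)), 0 < ε ∧ ∀ n, n ≤ N n ∧ N n ≤ p.eval n ∧ (C n).length ≤ d ∧
          ∀ x : Fin n → Bool, 1 / 2 + ε ≤ outProb (C n) (out n) x (parity x)) ∧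
    (∀ (d : ℕ) (p : Polynomial ℕ) (ε : ℝ), 0 < ε →
      ∃ n₀ : ℕ, ∀ n N : ℕ, n₀ ≤ n → n ≤ N → N ≤ p.eval n →
        ∀ (C : List (Layer N)) (out : Fin N), C.length ≤ d →
          ¬ ∀ x : Fin n → Bool, 1 / 2 + ε ≤ outProb C out x (parity x)) ∧
    (∀ (d : ℕ) (p : Polynomial ℕ) (η : ℝ), 0 < η →
      ∃ n₀ : ℕ, ∀ n N : ℕ, n₀ ≤ n → n ≤ N → N ≤ p.eval n →
        ∀ (C : List (Layer N)) (out : Fin N), entanglingDepth C ≤ d →
          |parityCorrelation n C out| ≤ (2 : ℝ) ^ (-((n : ℝ) ^ (1 - η)))) ∧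
    (∀ (d : ℕ) (p : Polynomial ℕ),
      ∃ n₀ : ℕ, ∀ n N : ℕ, n₀ ≤ n → n + 1 ≤ N → N ≤ p.eval n →
        ∀ C : List (Layer N), C.length ≤ d →
          ¬ ∀ (y : Fin (n + 1) → Bool) (z : Fin N → Bool), circuitMat C z (inputState N y) =
            if z = inputState N (fanout y) then 1 else 0) := by
  refine ⟨?_, worst_case, average_case, no_fanout⟩
  rintro ⟨ε, d, p, N, C, out, h0, h⟩
  obtain ⟨n₀, hn⟩ := worst_case d p ε h0
  obtain ⟨h1, h2, h3, h4⟩ := h n₀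
  exact hn n₀ (N n₀) le_rfl h1 h2 (C n₀) (out n₀) h3 h4

end Vale.Agent.Results.P368.ParityNotInQAC0
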